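import Mathlib

/-!
P092 (helper315), Team D, block D0-ABS: limits of positive maps `C(X, ℝ) → B(K)` which separate
disjoint supports.

`Pos T` : `T` is real linear, selfadjoint valued, satisfies the Kadison inequality and `T 1 ≤ 1`.
`Sep P l P' l'` : `⟪P w f ξ, P' w' g η⟫ → 0` if `f`, `g` have disjoint closed supports.
Asymptotic rule (`ar`) : `⟪P w f ξ, P' w' g η⟫ - ⟪P w (f g) ξ, P' w' 1 η⟫ → 0`.
-/

set_option linter.all false

open scoped InnerProductSpace
open Filter Topology ContinuousLinearMap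

namespace Vale.Agent.P092.H315D

section pos

variable {X K : Type*} [TopologicalSpace X] [NormedAddCommGroup K] [InnerProductSpace ℂ K]
  [CompleteSpace K]

theorem mulap (S T : K →L[ℂ] K) (ξ : K) : (S * T) ξ = S (T ξ) := rfl

/-- Positive maps. -/
structure Pos (T : C(X, ℝ) → (K →L[ℂ] K)) : Prop where
  add : ∀ f g, T (f + g) = T f + T g
  smul : ∀ (c : ℝ) f, T (c • f) = (c : ℂ) • T f
  adj : ∀ f, adjoint (T f) = T f
  ks : ∀ f ξ, ‖T f ξ‖ ^ 2 ≤ (⟪T (f * f) ξ, ξ⟫_ℂ).re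
  le : ∀ ξ, (⟪T 1 ξ, ξ⟫_ℂ).re ≤ ‖ξ‖ ^ 2

variable {T : C(X, ℝ) → (K →L[ℂ] K)}

namespace Pos

theorem zero (h : Pos T) : T 0 = 0 := by
  have := h.smul 0 0
  simpa using this

theorem neg (h : Pos T) (f : C(X, ℝ)) : T (-f) = -T f := by
  have := h.smul (-1) f
  simpa using this

theorem sub (h : Pos T) (f g : C(X, ℝ)) : T (f - g) = T f - T g := by
  rw [sub_eq_add_neg, h.add, h.neg, ← sub_eq_add_neg]

theorem sum (h : Pos T) {ι : Type*} (s : Finset ι) (f : ι → C(X, ℝ)) :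
    T (∑ i ∈ s, f i) = ∑ i ∈ s, T (f i) := by
  classical
  induction s using Finset.induction_on with
  | empty => simp [h.zero]
  | insert a s ha ih => rw [Finset.sum_insert ha, Finset.sum_insert ha, h.add, ih]

/-- The diagonal form. -/
theorem nonneg (h : Pos T) {f : C(X, ℝ)} (hf : ∀ x, 0 ≤ f x) (ξ : K) :
    0 ≤ (⟪T f ξ, ξ⟫_ℂ).re := by
  obtain ⟨s, hs⟩ : ∃ s : C(X, ℝ), s * s = f := by
    refine ⟨⟨fun x => Real.sqrt (f x), by fun_prop⟩, ?_⟩
    ext x
    exact Real.mul_self_sqrt (hf x)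
  have h1 := h.ks s ξ
  rw [hs] at h1
  exact (sq_nonneg _).trans h1

theorem mono (h : Pos T) {f g : C(X, ℝ)} (hf : ∀ x, f x ≤ g x) (ξ : K) :
    (⟪T f ξ, ξ⟫_ℂ).re ≤ (⟪T g ξ, ξ⟫_ℂ).re := by
  have h1 := h.nonneg (f := g - f) (fun x => by simpa using hf x) ξ
  rw [h.sub, sub_apply, inner_sub_left, Complex.sub_re] at h1
  linarith

theorem form_smul (h : Pos T) (c : ℝ) (f : C(X, ℝ)) (ξ : K) :
    (⟪T (c • f) ξ, ξ⟫_ℂ).re = c * (⟪T f ξ, ξ⟫_ℂ).re := by
  rw [h.smul, smul_apply, inner_smul_left, Complex.conj_ofReal, Complex.re_ofReal_mul]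

/-- `‖T u ξ‖² ≤ C² ⟨T f ξ, ξ⟩` if `u² ≤ C² f`. -/
theorem sq_le (h : Pos T) {u f : C(X, ℝ)} {C : ℝ} (hu : ∀ x, u x ^ 2 ≤ C ^ 2 * f x) (ξ : K) :
    ‖T u ξ‖ ^ 2 ≤ C ^ 2 * (⟪T f ξ, ξ⟫_ℂ).re := by
  refine (h.ks u ξ).trans ?_
  rw [← h.form_smul]
  refine h.mono (fun x => ?_) ξ
  have := hu x
  simpa [sq] using this

theorem norm_ap_le (h : Pos T) {u : C(X, ℝ)} {C : ℝ} (hC : 0 ≤ C) (hu : ∀ x, |u x| ≤ C) (ξ : K) :
    ‖T u ξ‖ ≤ C * ‖ξ‖ := by
  have h1 := h.sq_le (u := u) (f := 1) (C := C) (fun x => by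
    have := hu x
    simp only [ContinuousMap.one_apply, mul_one]
    exact sq_le_sq' (by linarith [(abs_le.mp this).1]) (abs_le.mp this).2) ξ
  have h2 : ‖T u ξ‖ ^ 2 ≤ (C * ‖ξ‖) ^ 2 := by
    rw [mul_pow]
    exact h1.trans (mul_le_mul_of_nonneg_left (h.le ξ) (sq_nonneg _))
  exact (pow_le_pow_iff_left₀ (norm_nonneg _) (by positivity) two_ne_zero).mp h2

theorem opNorm_le (h : Pos T) {u : C(X, ℝ)} {C : ℝ} (hC : 0 ≤ C) (hu : ∀ x, |u x| ≤ C) :
    ‖T u‖ ≤ C :=
  ContinuousLinearMap.opNorm_le_bound _ hC fun ξ => h.norm_ap_le hC hu ξ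

end Pos

end pos

/-! ### Levels of a function -/

section levels

variable {X : Type*} [TopologicalSpace X]

/-- The `j`-th level (shifted by 2) of `g` at scale `1 / N`. -/
noncomputable def cl (N : ℕ) (g : C(X, ℝ)) (j : ℕ) : C(X, ℝ) :=
  ⟨fun x => max 0 (min 1 ((N : ℝ) * g x + 2 - j)), by fun_prop⟩

theorem cl_apply (N : ℕ) (g : C(X, ℝ)) (j : ℕ) (x : X) :
    cl N g j x = max 0 (min 1 ((N : ℝ) * g x + 2 - j)) := rfl

theorem cl_nonneg (N : ℕ) (g : C(X, ℝ)) (j : ℕ) (x : X) : 0 ≤ cl N g j x := le_max_left _ _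

theorem cl_le_one (N : ℕ) (g : C(X, ℝ)) (j : ℕ) (x : X) : cl N g j x ≤ 1 :=
  max_le zero_le_one (min_le_left _ _)

theorem cl_anti (N : ℕ) (g : C(X, ℝ)) {i j : ℕ} (h : i ≤ j) (x : X) :
    cl N g j x ≤ cl N g i x := by
  rw [cl_apply, cl_apply]
  have : (i : ℝ) ≤ j := by exact_mod_cast h
  exact max_le_max le_rfl (min_le_min le_rfl (by linarith))

theorem cl_zero_of_le {N : ℕ} {g : C(X, ℝ)} {j : ℕ} {x : X} (h : (N : ℝ) * g x + 2 - j ≤ 0) :
    cl N g j x = 0 := by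
  rw [cl_apply, max_eq_left]
  exact (min_le_right _ _).trans h

theorem cl_one_of_le {N : ℕ} {g : C(X, ℝ)} {j : ℕ} {x : X} (h : 1 ≤ (N : ℝ) * g x + 2 - j) :
    cl N g j x = 1 := by
  rw [cl_apply, min_eq_left h, max_eq_right zero_le_one]

theorem sum_cl_aux (s : ℝ) (hs : 0 ≤ s) (n : ℕ) :
    ∑ k ∈ Finset.range n, max 0 (min 1 (s + 2 - ((k + 2 : ℕ) : ℝ))) = min s n := by
  induction n with
  | zero => simp [hs]
  | succ n ih =>
    rw [Finset.sum_range_succ, ih]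
    push_cast
    rcases le_total s n with h1 | h1
    · rw [min_eq_left h1, max_eq_left, min_eq_left (by linarith), add_zero]
      exact (min_le_right _ _).trans (by linarith)
    · rw [min_eq_right h1]
      rcases le_total s (n + 1) with h2 | h2
      · rw [min_eq_left h2, min_eq_right (by linarith), max_eq_right (by linarith)]
        ring
      · rw [min_eq_right h2, min_eq_left (by linarith), max_eq_right zero_le_one]

theorem sum_cl {N : ℕ} (hN : 0 < N) {g : C(X, ℝ)} (h0 : ∀ x, 0 ≤ g x) (h1 : ∀ x, g x ≤ 1) :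
    g = ((N : ℝ)⁻¹) • ∑ k ∈ Finset.range N, cl N g (k + 2) := by
  have hN' : (0 : ℝ) < N := by exact_mod_cast hN
  ext x
  rw [ContinuousMap.smul_apply, ContinuousMap.sum_apply]
  have h2 := sum_cl_aux ((N : ℝ) * g x) (mul_nonneg hN'.le (h0 x)) N
  have h3 : ∑ k ∈ Finset.range N, cl N g (k + 2) x = min ((N : ℝ) * g x) N := by
    rw [← h2]; rfl
  rw [h3, min_eq_left (by have := h1 x; nlinarith), smul_eq_mul]
  field_simp

theorem sum_diff_le (N : ℕ) (g : C(X, ℝ)) (a n : ℕ) (x : X) :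
    ∑ k ∈ Finset.range n, (cl N g (k + a) x - cl N g (k + a + 2) x) ≤ 2 := by
  have h1 : ∀ k, cl N g (k + a) x - cl N g (k + a + 2) x =
      (fun i => cl N g (i + a) x + cl N g (i + a + 1) x) k -
      (fun i => cl N g (i + a) x + cl N g (i + a + 1) x) (k + 1) := by
    intro k
    simp only
    rw [show k + 1 + a = k + a + 1 by ring, show k + a + 1 + 1 = k + a + 2 by ring]
    ring
  rw [Finset.sum_congr rfl (fun k _ => h1 k), Finset.sum_range_sub']
  have a1 := cl_le_one N g (0 + a) x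
  have a2 := cl_le_one N g (0 + a + 1) x
  have a3 := cl_nonneg N g (n + a) x
  have a4 := cl_nonneg N g (n + a + 1) x
  linarith

/-- Supports: `u` vanishes where `s < N g`, `v` vanishes where `N g < t`, `s < t`. -/
theorem disj_supp {g : C(X, ℝ)} {c s t : ℝ} (hst : s < t) {u v : C(X, ℝ)}
    (hu : ∀ x, s < c * g x → u x = 0) (hv : ∀ x, c * g x < t → v x = 0) :
    Disjoint (tsupport u) (tsupport v) := by
  have h1 : tsupport u ⊆ {x | c * g x ≤ s} := by
    refine closure_minimal (fun x hx => ?_) (isClosed_le (by fun_prop) continuous_const)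
    by_contra h
    exact hx (hu x (not_le.mp h))
  have h2 : tsupport v ⊆ {x | t ≤ c * g x} := by
    refine closure_minimal (fun x hx => ?_) (isClosed_le continuous_const (by fun_prop))
    by_contra h
    exact hx (hv x (not_le.mp h))
  rw [Set.disjoint_left]
  intro x hx hx'
  have a := h1 hx
  have b := h2 hx'
  simp only [Set.mem_setOf_eq] at a b
  linarith

end levels

/-! ### The asymptotic rule -/

section rule

variable {W W' X K : Type*} [TopologicalSpace X] [NormedAddCommGroup K] [InnerProductSpace ℂ K]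
  [CompleteSpace K]

/-- Asymptotic separation. -/
def Sep (P : W → C(X, ℝ) → (K →L[ℂ] K)) (l : Filter W) (P' : W' → C(X, ℝ) → (K →L[ℂ] K))
    (l' : Filter W') : Prop :=
  ∀ f g : C(X, ℝ), Disjoint (tsupport f) (tsupport g) → ∀ ξ η : K,
    Tendsto (fun q : W × W' => ⟪P q.1 f ξ, P' q.2 g η⟫_ℂ) (l ×ˢ l') (𝓝 0)

variable {P : W → C(X, ℝ) → (K →L[ℂ] K)} {l : Filter W} {P' : W' → C(X, ℝ) → (K →L[ℂ] K)}
  {l' : Filter W'}

theorem Sep.symm (h : Sep P l P' l') : Sep P' l' P l := by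
  intro f g hd ξ η
  have h1 := (h g f hd.symm η ξ).comp (Filter.tendsto_prod_swap (f := l') (g := l))
  have h2 := (Complex.continuous_conj.tendsto _).comp h1
  rw [map_zero] at h2
  refine h2.congr fun q => ?_
  simp only [Function.comp_apply, Prod.fst_swap, Prod.snd_swap]
  exact inner_conj_symm _ _

theorem Sep.mono {m : Filter W} {m' : Filter W'} (h : Sep P l P' l') (hm : m ≤ l) (hm' : m' ≤ l') :
    Sep P m P' m' := fun f g hd ξ η => (h f g hd ξ η).mono_left (Filter.prod_mono hm hm')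

/-- One level. -/
theorem level (hP : ∀ w, Pos (P w)) (hP' : ∀ w, Pos (P' w)) (N : ℕ) (f g : C(X, ℝ)) (k : ℕ)
    (ξ η : K) (w : W) (w' : W') :
    ⟪P w f ξ, P' w' (cl N g (k + 2)) η⟫_ℂ - ⟪P w (f * cl N g (k + 2)) ξ, P' w' 1 η⟫_ℂ =
    (⟪P w (f * (1 - cl N g (k + 2))) ξ, P' w' (cl N g (k + 4)) η⟫_ℂ +
     ⟪P w (f * (1 - cl N g k)) ξ, P' w' (cl N g (k + 2) - cl N g (k + 4)) η⟫_ℂ -
     ⟪P w (f * cl N g (k + 2)) ξ, P' w' (1 - cl N g k) η⟫_ℂ -
     ⟪P w (f * cl N g (k + 4)) ξ, P' w' (cl N g k - cl N g (k + 2)) η⟫_ℂ) +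
    (⟪P w (f * (cl N g k - cl N g (k + 2))) ξ, P' w' (cl N g (k + 2) - cl N g (k + 4)) η⟫_ℂ -
     ⟪P w (f * (cl N g (k + 2) - cl N g (k + 4))) ξ,
       P' w' (cl N g k - cl N g (k + 2)) η⟫_ℂ) := by
  simp only [mul_sub, mul_one, (hP w).sub, (hP' w').sub, sub_apply, inner_sub_left,
    inner_sub_right]
  ring

theorem amgm (a b F : ℝ) (c d : ℝ) (ha : a ^ 2 ≤ F ^ 2 * c) (hb : b ^ 2 ≤ 1 ^ 2 * d) :
    a * b ≤ (F ^ 2 * c + d) / 2 := by
  nlinarith [sq_nonneg (a - b)]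

theorem sq_diff_le {N : ℕ} {g : C(X, ℝ)} {i j : ℕ} (hij : i ≤ j) (x : X) :
    (cl N g i x - cl N g j x) ^ 2 ≤ cl N g i x - cl N g j x := by
  have a1 := cl_le_one N g i x
  have a2 := cl_nonneg N g j x
  have a3 := cl_anti N g hij x
  nlinarith

/-- The asymptotic rule for `0 ≤ g ≤ 1`. -/
theorem ar_unit (hP : ∀ w, Pos (P w)) (hP' : ∀ w, Pos (P' w)) (hs : Sep P l P' l')
    {f g : C(X, ℝ)} {F : ℝ} (hF : ∀ x, |f x| ≤ F) (h0 : ∀ x, 0 ≤ g x) (h1 : ∀ x, g x ≤ 1)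
    (ξ η : K) :
    Tendsto (fun q : W × W' => ⟪P q.1 f ξ, P' q.2 g η⟫_ℂ - ⟪P q.1 (f * g) ξ, P' q.2 1 η⟫_ℂ)
      (l ×ˢ l') (𝓝 0) := by
  rw [Metric.tendsto_nhds]
  intro ε hε
  obtain ⟨N, hN⟩ := exists_nat_gt (4 * (F ^ 2 * ‖ξ‖ ^ 2 + ‖η‖ ^ 2) / ε)
  have hN0 : (0 : ℝ) < N := lt_of_le_of_lt (by positivity) hN
  have hN0' : 0 < N := by exact_mod_cast hN0
  -- the separated part
  obtain ⟨S, hS⟩ : ∃ S : ℕ → W × W' → ℂ, S = fun k q =>
      (⟪P q.1 (f * (1 - cl N g (k + 2))) ξ, P' q.2 (cl N g (k + 4)) η⟫_ℂ +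
     ⟪P q.1 (f * (1 - cl N g k)) ξ, P' q.2 (cl N g (k + 2) - cl N g (k + 4)) η⟫_ℂ -
     ⟪P q.1 (f * cl N g (k + 2)) ξ, P' q.2 (1 - cl N g k) η⟫_ℂ -
     ⟪P q.1 (f * cl N g (k + 4)) ξ, P' q.2 (cl N g k - cl N g (k + 2)) η⟫_ℂ) := ⟨_, rfl⟩
  obtain ⟨R, hR⟩ : ∃ R : ℕ → W × W' → ℂ, R = fun k q =>
      (⟪P q.1 (f * (cl N g k - cl N g (k + 2))) ξ,
        P' q.2 (cl N g (k + 2) - cl N g (k + 4)) η⟫_ℂ -
     ⟪P q.1 (f * (cl N g (k + 2) - cl N g (k + 4))) ξ,
       P' q.2 (cl N g k - cl N g (k + 2)) η⟫_ℂ) := ⟨_, rfl⟩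
  have hS0 : ∀ k, Tendsto (S k) (l ×ˢ l') (𝓝 0) := by
    intro k
    have e1 := hs (f * (1 - cl N g (k + 2))) (cl N g (k + 4))
      (disj_supp (g := g) (c := N) (s := k + 1) (t := k + 2) (by linarith)
        (fun x hx => by
          rw [ContinuousMap.mul_apply, ContinuousMap.sub_apply, ContinuousMap.one_apply,
            cl_one_of_le (by push_cast; linarith), sub_self, mul_zero])
        (fun x hx => cl_zero_of_le (by push_cast; linarith))) ξ η
    have e2 := hs (f * (1 - cl N g k)) (cl N g (k + 2) - cl N g (k + 4))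
      (disj_supp (g := g) (c := N) (s := k - 1) (t := k) (by linarith)
        (fun x hx => by
          rw [ContinuousMap.mul_apply, ContinuousMap.sub_apply, ContinuousMap.one_apply,
            cl_one_of_le (by linarith), sub_self, mul_zero])
        (fun x hx => by
          rw [ContinuousMap.sub_apply, cl_zero_of_le (by push_cast; linarith),
            cl_zero_of_le (by push_cast; linarith), sub_self])) ξ η
    have e3 := hs (f * cl N g (k + 2)) (1 - cl N g k)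
      (disj_supp (g := g) (c := N) (s := k - 1) (t := k) (by linarith)
        (fun x hx => by
          rw [ContinuousMap.sub_apply, ContinuousMap.one_apply,
            cl_one_of_le (by linarith), sub_self])
        (fun x hx => by
          rw [ContinuousMap.mul_apply, cl_zero_of_le (by push_cast; linarith), mul_zero])).symm ξ η
    have e4 := hs (f * cl N g (k + 4)) (cl N g k - cl N g (k + 2))
      (disj_supp (g := g) (c := N) (s := k + 1) (t := k + 2) (by linarith)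
        (fun x hx => by
          rw [ContinuousMap.sub_apply, cl_one_of_le (by linarith),
            cl_one_of_le (by push_cast; linarith), sub_self])
        (fun x hx => by
          rw [ContinuousMap.mul_apply, cl_zero_of_le (by push_cast; linarith),
            mul_zero])).symm ξ η
    have := ((e1.add e2).sub e3).sub e4
    rw [hS]
    simpa using this
  have hR0 : ∀ q : W × W', ‖∑ k ∈ Finset.range N, R k q‖ ≤ 2 * (F ^ 2 * ‖ξ‖ ^ 2 + ‖η‖ ^ 2) := by
    intro q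
    obtain ⟨A, hA⟩ : ∃ A : C(X, ℝ) → ℝ, A = fun u => (⟪P q.1 u ξ, ξ⟫_ℂ).re := ⟨_, rfl⟩
    obtain ⟨B, hB⟩ : ∃ B : C(X, ℝ) → ℝ, B = fun u => (⟪P' q.2 u η, η⟫_ℂ).re := ⟨_, rfl⟩
    have hF2 : ∀ x, f x ^ 2 ≤ F ^ 2 := fun x => by
      have := abs_le.mp (hF x)
      exact sq_le_sq' (by linarith [this.1]) this.2
    have one : ∀ i j i' j' : ℕ, i ≤ j → i' ≤ j' →
        ‖⟪P q.1 (f * (cl N g i - cl N g j)) ξ, P' q.2 (cl N g i' - cl N g j') η⟫_ℂ‖ ≤
        (F ^ 2 * A (cl N g i - cl N g j) + B (cl N g i' - cl N g j')) / 2 := by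
      intro i j i' j' hij hij'
      refine (norm_inner_le_norm _ _).trans (amgm _ _ _ _ _ ?_ ?_)
      · rw [hA]
        refine (hP q.1).sq_le (fun x => ?_) ξ
        have a1 := sq_diff_le (N := N) (g := g) hij x
        have a2 := hF2 x
        rw [ContinuousMap.mul_apply, ContinuousMap.sub_apply, mul_pow]
        exact mul_le_mul a2 a1 (sq_nonneg _) (sq_nonneg _)
      · rw [hB]
        refine (hP' q.2).sq_le (fun x => ?_) η
        rw [ContinuousMap.sub_apply, one_pow, one_mul]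
        exact sq_diff_le (N := N) (g := g) hij' x
    have sumA : ∀ a : ℕ, ∑ k ∈ Finset.range N, A (cl N g (k + a) - cl N g (k + a + 2)) ≤
        2 * ‖ξ‖ ^ 2 := by
      intro a
      have e1 : ∑ k ∈ Finset.range N, A (cl N g (k + a) - cl N g (k + a + 2)) =
          A (∑ k ∈ Finset.range N, (cl N g (k + a) - cl N g (k + a + 2))) := by
        rw [hA]
        simp only
        rw [(hP q.1).sum, ContinuousLinearMap.sum_apply, sum_inner, Complex.re_sum]
      rw [e1, hA]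
      simp only
      refine ((hP q.1).mono (g := (2 : ℝ) • 1) (fun x => ?_) ξ).trans ?_
      · rw [ContinuousMap.sum_apply]
        have := sum_diff_le N g a N x
        simpa using this
      · rw [(hP q.1).form_smul]
        have := (hP q.1).le ξ
        linarith
    have sumB : ∀ a : ℕ, ∑ k ∈ Finset.range N, B (cl N g (k + a) - cl N g (k + a + 2)) ≤
        2 * ‖η‖ ^ 2 := by
      intro a
      have e1 : ∑ k ∈ Finset.range N, B (cl N g (k + a) - cl N g (k + a + 2)) =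
          B (∑ k ∈ Finset.range N, (cl N g (k + a) - cl N g (k + a + 2))) := by
        rw [hB]
        simp only
        rw [(hP' q.2).sum, ContinuousLinearMap.sum_apply, sum_inner, Complex.re_sum]
      rw [e1, hB]
      simp only
      refine ((hP' q.2).mono (g := (2 : ℝ) • 1) (fun x => ?_) η).trans ?_
      · rw [ContinuousMap.sum_apply]
        have := sum_diff_le N g a N x
        simpa using this
      · rw [(hP' q.2).form_smul]
        have := (hP' q.2).le η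
        linarith
    have step : ∀ k, ‖R k q‖ ≤
        ((F ^ 2 * A (cl N g (k + 0) - cl N g (k + 0 + 2)) +
          B (cl N g (k + 2) - cl N g (k + 2 + 2))) / 2) +
        ((F ^ 2 * A (cl N g (k + 2) - cl N g (k + 2 + 2)) +
          B (cl N g (k + 0) - cl N g (k + 0 + 2))) / 2) := by
      intro k
      rw [hR]
      refine (norm_sub_le _ _).trans (add_le_add ?_ ?_)
      · exact one k (k + 2) (k + 2) (k + 4) (by omega) (by omega)
      · exact one (k + 2) (k + 4) k (k + 2) (by omega) (by omega)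
    refine (norm_sum_le _ _).trans ((Finset.sum_le_sum fun k _ => step k).trans ?_)
    rw [Finset.sum_add_distrib, ← Finset.sum_div, ← Finset.sum_div, Finset.sum_add_distrib,
      Finset.sum_add_distrib, ← Finset.mul_sum, ← Finset.mul_sum]
    have a0 := sumA 0
    have a2 := sumA 2
    have b0 := sumB 0
    have b2 := sumB 2
    have hF0 : 0 ≤ F ^ 2 := sq_nonneg _
    nlinarith
  -- the sum over the levels
  have key : ∀ q : W × W', ⟪P q.1 f ξ, P' q.2 g η⟫_ℂ - ⟪P q.1 (f * g) ξ, P' q.2 1 η⟫_ℂ =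
      ((N : ℝ)⁻¹ : ℂ) * (∑ k ∈ Finset.range N, S k q) +
      ((N : ℝ)⁻¹ : ℂ) * (∑ k ∈ Finset.range N, R k q) := by
    intro q
    rw [← mul_add, ← Finset.sum_add_distrib]
    have e0 := sum_cl hN0' h0 h1
    have e1 : P' q.2 g = ((N : ℝ)⁻¹ : ℂ) • ∑ k ∈ Finset.range N, P' q.2 (cl N g (k + 2)) := by
      conv_lhs => rw [e0]
      rw [(hP' q.2).smul, (hP' q.2).sum]
      push_cast; rfl
    have e2 : P q.1 (f * g) =
        ((N : ℝ)⁻¹ : ℂ) • ∑ k ∈ Finset.range N, P q.1 (f * cl N g (k + 2)) := by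
      conv_lhs => rw [e0]
      rw [mul_smul_comm, (hP q.1).smul, Finset.mul_sum, (hP q.1).sum]
      push_cast; rfl
    rw [e1, e2]
    simp only [smul_apply, ContinuousLinearMap.sum_apply, inner_smul_left, inner_smul_right,
      inner_sum, sum_inner, map_inv₀, Complex.conj_ofReal]
    rw [← mul_sub, ← Finset.sum_sub_distrib]
    congr 1
    refine Finset.sum_congr rfl fun k _ => ?_
    rw [hS, hR]
    exact level hP hP' N f g k ξ η q.1 q.2
  have hS1 : Tendsto (fun q => ((N : ℝ)⁻¹ : ℂ) * (∑ k ∈ Finset.range N, S k q)) (l ×ˢ l')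
      (𝓝 0) := by
    have e1 : Tendsto (fun q => ∑ k ∈ Finset.range N, S k q) (l ×ˢ l') (𝓝 0) := by
      have := tendsto_finset_sum (Finset.range N) (fun k _ => hS0 k)
      simpa using this
    have := e1.const_mul ((N : ℝ)⁻¹ : ℂ)
    rwa [mul_zero] at this
  filter_upwards [(Metric.tendsto_nhds.mp hS1) (ε / 2) (by positivity)] with q hq
  rw [dist_zero_right] at hq ⊢
  rw [key q]
  refine (norm_add_le _ _).trans_lt ?_
  have h3 : ‖((N : ℝ)⁻¹ : ℂ) * (∑ k ∈ Finset.range N, R k q)‖ ≤ ε / 2 := by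
    rw [norm_mul]
    have e1 : ‖((N : ℝ)⁻¹ : ℂ)‖ = (N : ℝ)⁻¹ := by
      rw [norm_inv, Complex.norm_real, Real.norm_of_nonneg hN0.le]
    rw [e1]
    have e2 := hR0 q
    rw [div_lt_iff₀ hε] at hN
    calc (N : ℝ)⁻¹ * ‖∑ k ∈ Finset.range N, R k q‖
        ≤ (N : ℝ)⁻¹ * (2 * (F ^ 2 * ‖ξ‖ ^ 2 + ‖η‖ ^ 2)) :=
          mul_le_mul_of_nonneg_left e2 (by positivity)
      _ ≤ ε / 2 := by
          rw [inv_mul_le_iff₀ hN0]
          linarith
  linarith

/-- **The asymptotic rule.** -/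
theorem ar [CompactSpace X] (hP : ∀ w, Pos (P w)) (hP' : ∀ w, Pos (P' w)) (hs : Sep P l P' l')
    (f g : C(X, ℝ)) (ξ η : K) :
    Tendsto (fun q : W × W' => ⟪P q.1 f ξ, P' q.2 g η⟫_ℂ - ⟪P q.1 (f * g) ξ, P' q.2 1 η⟫_ℂ)
      (l ×ˢ l') (𝓝 0) := by
  obtain ⟨C, hC⟩ : ∃ C : ℝ, C = ‖g‖ + 1 := ⟨_, rfl⟩
  have hC0 : 0 < C := by rw [hC]; positivity
  obtain ⟨g0, hg0⟩ : ∃ g0 : C(X, ℝ), g0 = (2 * C)⁻¹ • (g + C • 1) := ⟨_, rfl⟩
  have hg : g = (2 * C) • g0 - C • 1 := by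
    rw [hg0, smul_smul, mul_inv_cancel₀ (by positivity), one_smul, add_sub_cancel_right]
  have hgb : ∀ x, |g x| ≤ C := fun x => by
    have := g.norm_coe_le_norm x
    rw [Real.norm_eq_abs] at this
    rw [hC]; linarith
  have h0 : ∀ x, 0 ≤ g0 x := fun x => by
    rw [hg0]
    simp only [ContinuousMap.smul_apply, ContinuousMap.add_apply, ContinuousMap.one_apply,
      smul_eq_mul, mul_one]
    have := (abs_le.mp (hgb x)).1
    have h3 : 0 ≤ (2 * C)⁻¹ := by positivity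
    exact mul_nonneg h3 (by linarith)
  have h1 : ∀ x, g0 x ≤ 1 := fun x => by
    rw [hg0]
    simp only [ContinuousMap.smul_apply, ContinuousMap.add_apply, ContinuousMap.one_apply,
      smul_eq_mul, mul_one]
    have := (abs_le.mp (hgb x)).2
    rw [inv_mul_le_iff₀ (by positivity)]
    linarith
  have h2 := ar_unit hP hP' hs (f := f) (g := g0) (F := ‖f‖)
    (fun x => by have := f.norm_coe_le_norm x; rwa [Real.norm_eq_abs] at this) h0 h1 ξ η
  have h3 := h2.const_mul ((2 * C : ℝ) : ℂ)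
  rw [mul_zero] at h3
  refine h3.congr fun q => ?_
  have e1 : P' q.2 g = ((2 * C : ℝ) : ℂ) • P' q.2 g0 - (C : ℂ) • P' q.2 1 := by
    conv_lhs => rw [hg]
    rw [(hP' q.2).sub, (hP' q.2).smul, (hP' q.2).smul]
  have e2 : P q.1 (f * g) = ((2 * C : ℝ) : ℂ) • P q.1 (f * g0) - (C : ℂ) • P q.1 f := by
    conv_lhs => rw [hg]
    rw [mul_sub, mul_smul_comm, mul_smul_comm, mul_one, (hP q.1).sub, (hP q.1).smul,
      (hP q.1).smul]
  rw [e1, e2]
  simp only [sub_apply, smul_apply, inner_sub_left, inner_sub_right, inner_smul_left,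
    inner_smul_right, Complex.conj_ofReal]
  ring

/-- The unit of a net. -/
structure Unt (P : W → C(X, ℝ) → (K →L[ℂ] K)) (l : Filter W) (p : K →L[ℂ] K) : Prop where
  lim : ∀ ξ, Tendsto (fun w => P w 1 ξ) l (𝓝 (p ξ))
  adj : adjoint p = p
  left : ∀ w f, p * P w f = P w f

variable {p : K →L[ℂ] K}

theorem Unt.inner (h : Unt P l p) (w : W) (f : C(X, ℝ)) (ξ η : K) :
    ⟪P w f ξ, p η⟫_ℂ = ⟪P w f ξ, η⟫_ℂ := by
  rw [← h.adj, adjoint_inner_right]
  have := congrArg (fun T : K →L[ℂ] K => T ξ) (h.left w f)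
  change p (P w f ξ) = P w f ξ at this
  rw [this]

/-- The diagonal form of the asymptotic rule. -/
theorem ar_form [CompactSpace X] (hP : ∀ w, Pos (P w)) (hP' : ∀ w, Pos (P' w))
    (hs : Sep P l P' l') (hu : ∀ w f, p * P w f = P w f) (hp : adjoint p = p)
    (hu' : ∀ ξ, Tendsto (fun w => P' w 1 ξ) l' (𝓝 (p ξ))) (f g : C(X, ℝ)) (ξ η : K) :
    Tendsto (fun q : W × W' => ⟪P q.1 f ξ, P' q.2 g η⟫_ℂ - ⟪P q.1 (f * g) ξ, η⟫_ℂ)
      (l ×ˢ l') (𝓝 0) := by
  have h1 := ar hP hP' hs f g ξ η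
  have h2 : Tendsto (fun q : W × W' => ⟪P q.1 (f * g) ξ, P' q.2 1 η - p η⟫_ℂ) (l ×ˢ l') (𝓝 0) := by
    have h3 : Tendsto (fun w' => P' w' 1 η - p η) l' (𝓝 0) := by
      have := (hu' η).sub_const (p η)
      rwa [sub_self] at this
    have h4 := ((h3.norm).const_mul (‖f * g‖ * ‖ξ‖)).comp (tendsto_snd (f := l) (g := l'))
    rw [norm_zero, mul_zero] at h4
    refine squeeze_zero_norm (fun q => ?_) h4
    refine (norm_inner_le_norm _ _).trans ?_
    refine mul_le_mul_of_nonneg_right ?_ (norm_nonneg _)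
    refine (hP q.1).norm_ap_le (norm_nonneg _) (fun x => ?_) ξ
    have := (f * g).norm_coe_le_norm x
    rwa [Real.norm_eq_abs] at this
  have h5 := h1.add h2
  rw [add_zero] at h5
  refine h5.congr fun q => ?_
  have e1 : ⟪P q.1 (f * g) ξ, p η⟫_ℂ = ⟪P q.1 (f * g) ξ, η⟫_ℂ := by
    rw [← hp, adjoint_inner_right]
    have := congrArg (fun T : K →L[ℂ] K => T ξ) (hu q.1 (f * g))
    change p (P q.1 (f * g) ξ) = P q.1 (f * g) ξ at this
    rw [this]
  rw [inner_sub_right, e1]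
  ring

/-- Two nets with the same unit have the same limit. -/
theorem joint_cauchy [CompactSpace X] (hP : ∀ w, Pos (P w)) (hP' : ∀ w, Pos (P' w))
    (hs : Sep P l P' l') (hu : Unt P l p) (hu' : Unt P' l' p) (f : C(X, ℝ)) (ξ : K) :
    Tendsto (fun q : W × W' => ‖P q.1 f ξ - P' q.2 f ξ‖) (l ×ˢ l') (𝓝 0) := by
  have h1 := ar_form hP hP' hs hu.left hu.adj hu'.lim f f ξ ξ
  have h2 := (ar_form hP' hP hs.symm hu'.left hu'.adj hu.lim f f ξ ξ).comp
    (Filter.tendsto_prod_swap (f := l) (g := l'))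
  have h3 := ((Complex.continuous_re.tendsto _).comp (h1.add h2)).neg
  rw [add_zero, Complex.zero_re, neg_zero] at h3
  have h4 : Tendsto (fun q : W × W' => ‖P q.1 f ξ - P' q.2 f ξ‖ ^ 2) (l ×ˢ l') (𝓝 0) := by
    refine squeeze_zero (fun q => by positivity) (fun q => ?_) h3
    have a1 := (hP q.1).ks f ξ
    have a2 := (hP' q.2).ks f ξ
    have a3 := @norm_sub_sq ℂ K _ _ _ (P q.1 f ξ) (P' q.2 f ξ)
    have a4 : (⟪P' q.2 f ξ, P q.1 f ξ⟫_ℂ).re = (⟪P q.1 f ξ, P' q.2 f ξ⟫_ℂ).re := by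
      rw [← inner_conj_symm, Complex.conj_re]
    have a5 : RCLike.re ⟪P q.1 f ξ, P' q.2 f ξ⟫_ℂ = (⟪P q.1 f ξ, P' q.2 f ξ⟫_ℂ).re := rfl
    rw [a3, a5]
    simp only [Function.comp_apply, Prod.fst_swap, Prod.snd_swap, Complex.add_re, Complex.sub_re]
    rw [a4]
    linarith
  have h5 := h4.sqrt
  rw [Real.sqrt_zero] at h5
  exact h5.congr fun q => Real.sqrt_sq (norm_nonneg _)

/-- **Strong convergence.** -/
theorem exists_lim [CompactSpace X] [l.NeBot] (hP : ∀ w, Pos (P w)) (hs : Sep P l P l)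
    (hu : Unt P l p) :
    ∃ E : C(X, ℝ) → (K →L[ℂ] K), ∀ f ξ, Tendsto (fun w => P w f ξ) l (𝓝 (E f ξ)) := by
  have h1 : ∀ (f : C(X, ℝ)) (ξ : K), ∃ x, Tendsto (fun w => P w f ξ) l (𝓝 x) := by
    intro f ξ
    rw [← cauchy_map_iff_exists_tendsto]
    refine cauchy_map_iff.mpr ⟨inferInstance, ?_⟩
    rw [tendsto_uniformity_iff_dist_tendsto_zero]
    refine (joint_cauchy hP hP hs hu hu f ξ).congr fun q => ?_
    rw [dist_eq_norm]
  choose e he using h1
  refine ⟨fun f => LinearMap.mkContinuous ⟨⟨e f, fun x y => ?_⟩, fun c x => ?_⟩ ‖f‖ fun x => ?_,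
    fun f ξ => he f ξ⟩
  · refine tendsto_nhds_unique (he f (x + y)) ?_
    exact ((he f x).add (he f y)).congr fun w => (map_add _ _ _).symm
  · refine tendsto_nhds_unique (he f (c • x)) ?_
    exact ((he f x).const_smul c).congr fun w => (map_smul _ _ _).symm
  · refine le_of_tendsto (he f x).norm (Eventually.of_forall fun w => ?_)
    refine (hP w).norm_ap_le (norm_nonneg _) (fun y => ?_) x
    have := f.norm_coe_le_norm y
    rwa [Real.norm_eq_abs] at this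

end rule

/-! ### Properties of the limit -/

section lim

variable {W W' X K : Type*} [TopologicalSpace X] [NormedAddCommGroup K] [InnerProductSpace ℂ K]
  [CompleteSpace K] {P : W → C(X, ℝ) → (K →L[ℂ] K)} {l : Filter W}
  {P' : W' → C(X, ℝ) → (K →L[ℂ] K)} {l' : Filter W'} {p : K →L[ℂ] K}
  {E E' : C(X, ℝ) → (K →L[ℂ] K)}

/-- Strong limit. -/
def Lm (P : W → C(X, ℝ) → (K →L[ℂ] K)) (l : Filter W) (E : C(X, ℝ) → (K →L[ℂ] K)) : Prop :=
  ∀ f ξ, Tendsto (fun w => P w f ξ) l (𝓝 (E f ξ))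

theorem Lm.uniq [l.NeBot] (h : Lm P l E) (h' : Lm P l E') : E = E' := by
  funext f
  ext ξ
  exact tendsto_nhds_unique (h f ξ) (h' f ξ)

theorem Lm.one [l.NeBot] (h : Lm P l E) (hu : Unt P l p) : E 1 = p := by
  ext ξ
  exact tendsto_nhds_unique (h 1 ξ) (hu.lim ξ)

theorem Lm.add [l.NeBot] (hP : ∀ w, Pos (P w)) (h : Lm P l E) (f g : C(X, ℝ)) :
    E (f + g) = E f + E g := by
  ext ξ
  refine tendsto_nhds_unique (h (f + g) ξ) (((h f ξ).add (h g ξ)).congr fun w => ?_)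
  rw [(hP w).add]; rfl

theorem Lm.smul [l.NeBot] (hP : ∀ w, Pos (P w)) (h : Lm P l E) (c : ℝ) (f : C(X, ℝ)) :
    E (c • f) = (c : ℂ) • E f := by
  ext ξ
  refine tendsto_nhds_unique (h (c • f) ξ) (((h f ξ).const_smul (c : ℂ)).congr fun w => ?_)
  rw [(hP w).smul]; rfl

theorem Lm.adj [l.NeBot] (hP : ∀ w, Pos (P w)) (h : Lm P l E) (f : C(X, ℝ)) :
    adjoint (E f) = E f := by
  ext ξ
  refine ext_inner_right ℂ fun η => ?_
  rw [adjoint_inner_left]
  have h1 := (tendsto_const_nhds (x := ξ) (f := l)).inner (𝕜 := ℂ) (h f η)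
  have h2 := (h f ξ).inner (𝕜 := ℂ) (tendsto_const_nhds (x := η))
  refine tendsto_nhds_unique h1 (h2.congr fun w => ?_)
  conv_lhs => rw [← (hP w).adj f]
  rw [adjoint_inner_left]

/-- The product rule for two nets. -/
theorem Lm.mul_two [CompactSpace X] [l.NeBot] [l'.NeBot] (hP : ∀ w, Pos (P w))
    (hP' : ∀ w, Pos (P' w)) (hs : Sep P l P' l') (h : Lm P l E) (h' : Lm P' l' E')
    (f g : C(X, ℝ)) : E' g * E f = E' 1 * E (f * g) := by
  ext ξ
  refine ext_inner_right ℂ fun η => ?_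
  have h1 := ar hP hP' hs f g ξ η
  have h2 := (((h f ξ).comp (tendsto_fst (f := l) (g := l'))).inner (𝕜 := ℂ)
    ((h' g η).comp (tendsto_snd (f := l) (g := l')))).sub
    (((h (f * g) ξ).comp (tendsto_fst (f := l) (g := l'))).inner (𝕜 := ℂ)
    ((h' 1 η).comp (tendsto_snd (f := l) (g := l'))))
  have h3 := tendsto_nhds_unique h2 h1
  rw [mulap, mulap]
  have e1 : ∀ (k : C(X, ℝ)) (a : K), ⟪E' k a, η⟫_ℂ = ⟪a, E' k η⟫_ℂ := by
    intro k a
    rw [← adjoint_inner_right, h'.adj hP']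
  rw [e1, e1]
  exact sub_eq_zero.mp h3

theorem Lm.left [l.NeBot] (h : Lm P l E) (hu : Unt P l p) (f : C(X, ℝ)) : p * E f = E f := by
  ext ξ
  have h1 := h f ξ
  have h2 := (p.continuous.tendsto _).comp h1
  refine tendsto_nhds_unique (h2.congr fun w => ?_) h1
  exact congrArg (fun T : K →L[ℂ] K => T ξ) (hu.left w f)

/-- **The limit is multiplicative.** -/
theorem Lm.mul [CompactSpace X] [l.NeBot] (hP : ∀ w, Pos (P w)) (hs : Sep P l P l)
    (h : Lm P l E) (hu : Unt P l p) (f g : C(X, ℝ)) : E (f * g) = E f * E g := by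
  have h1 := h.mul_two hP hP hs h g f
  rw [h.one hu, h.left hu, mul_comm g f] at h1
  exact h1.symm

/-- **Independence of the net.** -/
theorem Lm.indep [CompactSpace X] [l.NeBot] [l'.NeBot] (hP : ∀ w, Pos (P w))
    (hP' : ∀ w, Pos (P' w)) (hs : Sep P l P' l') (h : Lm P l E) (h' : Lm P' l' E')
    (hu : Unt P l p) (hu' : Unt P' l' p) : E = E' := by
  funext f
  have h1 := h.mul_two hP hP' hs h' f 1
  have h2 := h.mul_two hP hP' hs h' 1 f
  have h3 : E' 1 = E 1 := by rw [h'.one hu', h.one hu]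
  ext ξ
  have h4 := ((h f ξ).comp (tendsto_fst (f := l) (g := l'))).sub
    ((h' f ξ).comp (tendsto_snd (f := l) (g := l')))
  have h5 := joint_cauchy hP hP' hs hu hu' f ξ
  have h6 := tendsto_nhds_unique h4.norm h5
  exact sub_eq_zero.mp (norm_eq_zero.mp h6)

/-- Covariance and commutation: asymptotic intertwining relations pass to the limit. -/
theorem Lm.intertwine [l.NeBot] (h : Lm P l E) {W₂ : Type*} {X₂ : Type*} [TopologicalSpace X₂]
    {P₂ : W → C(X₂, ℝ) → (K →L[ℂ] K)} {E₂ : C(X₂, ℝ) → (K →L[ℂ] K)}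
    (h₂ : Lm P₂ l E₂) (U : K →L[ℂ] K) (f : C(X, ℝ)) (g : C(X₂, ℝ))
    (ha : ∀ ξ, Tendsto (fun w => U (P w f ξ) - P₂ w g (U ξ)) l (𝓝 0)) :
    U * E f = E₂ g * U := by
  ext ξ
  have h1 := (U.continuous.tendsto _).comp (h f ξ)
  have h2 := h₂ g (U ξ)
  have h3 := h1.sub h2
  have h4 := tendsto_nhds_unique h3 (ha ξ)
  rw [mulap, mulap]
  exact sub_eq_zero.mp h4

/-- Shifts of the net: `P (σ w) f U' = U' (P w f)` and `σ w → ∞` give `E f U' = U' E f`. -/
theorem Lm.shift [l.NeBot] (h : Lm P l E) {σ : W → W} (hσ : Tendsto σ l l) (U : K →L[ℂ] K)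
    (f : C(X, ℝ)) (hU : ∀ w, P (σ w) f * U = U * P w f) : E f * U = U * E f := by
  ext ξ
  have h1 := (h f (U ξ)).comp hσ
  have h2 := (U.continuous.tendsto _).comp (h f ξ)
  refine tendsto_nhds_unique (h1.congr fun w => ?_) h2
  exact congrArg (fun T : K →L[ℂ] K => T ξ) (hU w)

/-- Bounded change of the argument. -/
theorem Lm.norm_le [l.NeBot] (hP : ∀ w, Pos (P w)) (h : Lm P l E) {f : C(X, ℝ)} {C : ℝ}
    (hC : 0 ≤ C) (hf : ∀ x, |f x| ≤ C) : ‖E f‖ ≤ C := by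
  refine ContinuousLinearMap.opNorm_le_bound _ hC fun ξ => ?_
  exact le_of_tendsto (h f ξ).norm (Eventually.of_forall fun w => (hP w).norm_ap_le hC hf ξ)

end lim

/-! ### Complexification -/

section cplx

variable {X K : Type*} [TopologicalSpace X] [NormedAddCommGroup K] [InnerProductSpace ℂ K]
  [CompleteSpace K]

/-- Real part. -/
noncomputable def reC (f : C(X, ℂ)) : C(X, ℝ) := ⟨fun x => (f x).re, by fun_prop⟩

/-- Imaginary part. -/
noncomputable def imC (f : C(X, ℂ)) : C(X, ℝ) := ⟨fun x => (f x).im, by fun_prop⟩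

/-- Real functions as complex functions. -/
noncomputable def ofR (f : C(X, ℝ)) : C(X, ℂ) := ⟨fun x => (f x : ℂ), by fun_prop⟩

theorem reC_ap (f : C(X, ℂ)) (x : X) : reC f x = (f x).re := rfl

theorem imC_ap (f : C(X, ℂ)) (x : X) : imC f x = (f x).im := rfl

theorem ofR_ap (f : C(X, ℝ)) (x : X) : ofR f x = (f x : ℂ) := rfl

/-- Real homomorphisms. -/
structure RHom (T : C(X, ℝ) → (K →L[ℂ] K)) : Prop where
  add : ∀ f g, T (f + g) = T f + T g
  smul : ∀ (c : ℝ) f, T (c • f) = (c : ℂ) • T f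
  adj : ∀ f, adjoint (T f) = T f
  mul : ∀ f g, T (f * g) = T f * T g
  one : T 1 = 1

/-- The complex star homomorphism of a real homomorphism. -/
noncomputable def cplx {T : C(X, ℝ) → (K →L[ℂ] K)} (h : RHom T) :
    C(X, ℂ) →⋆ₐ[ℂ] (K →L[ℂ] K) where
  toFun f := T (reC f) + Complex.I • T (imC f)
  map_one' := by
    have h1 : reC (1 : C(X, ℂ)) = 1 := by ext x; simp [reC_ap]
    have h2 : imC (1 : C(X, ℂ)) = (0 : ℝ) • 1 := by ext x; simp [imC_ap]
    rw [h1, h2, h.one, h.smul]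
    simp
  map_zero' := by
    have h1 : reC (0 : C(X, ℂ)) = (0 : ℝ) • 1 := by ext x; simp [reC_ap]
    have h2 : imC (0 : C(X, ℂ)) = (0 : ℝ) • 1 := by ext x; simp [imC_ap]
    rw [h1, h2, h.smul]
    simp
  map_add' f g := by
    have h1 : reC (f + g) = reC f + reC g := by ext x; simp [reC_ap]
    have h2 : imC (f + g) = imC f + imC g := by ext x; simp [imC_ap]
    rw [h1, h2, h.add, h.add, smul_add]
    abel
  map_mul' f g := by
    have h1 : reC (f * g) = reC f * reC g + (-1 : ℝ) • (imC f * imC g) := by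
      ext x; simp [reC_ap, imC_ap, sub_eq_add_neg]
    have h2 : imC (f * g) = reC f * imC g + imC f * reC g := by
      ext x; simp [reC_ap, imC_ap]
    rw [h1, h2, h.add, h.add, h.smul, h.mul, h.mul, h.mul, h.mul]
    simp only [mul_add, add_mul, smul_mul_assoc, mul_smul_comm, smul_add, smul_smul,
      Complex.I_mul_I]
    push_cast
    abel
  commutes' c := by
    have h1 : reC (algebraMap ℂ C(X, ℂ) c) = c.re • 1 := by
      ext x; simp [reC_ap, Algebra.algebraMap_eq_smul_one]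
    have h2 : imC (algebraMap ℂ C(X, ℂ) c) = c.im • 1 := by
      ext x; simp [imC_ap, Algebra.algebraMap_eq_smul_one]
    rw [h1, h2, h.smul, h.smul, h.one, smul_smul, ← add_smul, Algebra.algebraMap_eq_smul_one]
    congr 1
    rw [mul_comm]
    exact Complex.re_add_im c
  map_star' f := by
    have h1 : reC (star f) = reC f := by ext x; simp [reC_ap]
    have h2 : imC (star f) = (-1 : ℝ) • imC f := by ext x; simp [imC_ap]
    rw [h1, h2, h.smul]
    rw [star_add, star_smul, star_eq_adjoint, star_eq_adjoint, h.adj, h.adj]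
    simp

theorem cplx_ap {T : C(X, ℝ) → (K →L[ℂ] K)} (h : RHom T) (f : C(X, ℂ)) :
    cplx h f = T (reC f) + Complex.I • T (imC f) := rfl

theorem cplx_ofR {T : C(X, ℝ) → (K →L[ℂ] K)} (h : RHom T) (f : C(X, ℝ)) :
    cplx h (ofR f) = T f := by
  have h1 : reC (ofR f) = f := by ext x; simp [reC_ap, ofR_ap]
  have h2 : imC (ofR f) = (0 : ℝ) • 1 := by ext x; simp [imC_ap, ofR_ap]
  rw [cplx_ap, h1, h2, h.smul]
  simp

/-- Two star homomorphisms which agree on real functions agree. -/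
theorem hom_ext {β β' : C(X, ℂ) →⋆ₐ[ℂ] (K →L[ℂ] K)} (h : ∀ f : C(X, ℝ), β (ofR f) = β' (ofR f)) :
    β = β' := by
  refine StarAlgHom.ext fun f => ?_
  have h1 : f = ofR (reC f) + Complex.I • ofR (imC f) := by
    ext x
    simp only [ContinuousMap.add_apply, ContinuousMap.smul_apply, ofR_ap, reC_ap, imC_ap,
      smul_eq_mul]
    rw [mul_comm]
    exact (Complex.re_add_im _).symm
  rw [h1, map_add, map_add, map_smul, map_smul, h, h]

end cplx

section main

variable {W W' X K : Type*} [TopologicalSpace X] [CompactSpace X] [NormedAddCommGroup K]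
  [InnerProductSpace ℂ K] [CompleteSpace K] {P : W → C(X, ℝ) → (K →L[ℂ] K)} {l : Filter W}
  {P' : W' → C(X, ℝ) → (K →L[ℂ] K)} {l' : Filter W'}

theorem Lm.rhom [l.NeBot] (hP : ∀ w, Pos (P w)) (hs : Sep P l P l) {E : C(X, ℝ) → (K →L[ℂ] K)}
    (h : Lm P l E) (hu : ∀ ξ, Tendsto (fun w => P w 1 ξ) l (𝓝 ξ)) : RHom E := by
  have hu' : Unt P l (1 : K →L[ℂ] K) :=
    ⟨hu, by rw [← star_eq_adjoint, star_one], fun w f => one_mul _⟩
  exact ⟨h.add hP, h.smul hP, h.adj hP, h.mul hP hs hu', h.one hu'⟩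

/-- **Main theorem.** A net of positive maps with asymptotic unit `1` which separates disjoint
supports converges strongly to a unital star homomorphism. -/
theorem exists_hom [l.NeBot] (hP : ∀ w, Pos (P w)) (hs : Sep P l P l)
    (hu : ∀ ξ, Tendsto (fun w => P w 1 ξ) l (𝓝 ξ)) :
    ∃ β : C(X, ℂ) →⋆ₐ[ℂ] (K →L[ℂ] K),
      (∀ (f : C(X, ℝ)) ξ, Tendsto (fun w => P w f ξ) l (𝓝 (β (ofR f) ξ))) ∧
      ∀ (f : C(X, ℂ)) ξ, Tendsto (fun w => P w (reC f) ξ + Complex.I • P w (imC f) ξ) l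
        (𝓝 (β f ξ)) := by
  have hu' : Unt P l (1 : K →L[ℂ] K) :=
    ⟨hu, by rw [← star_eq_adjoint, star_one], fun w f => one_mul _⟩
  obtain ⟨E, hE⟩ := exists_lim hP hs hu'
  have hR : RHom E := Lm.rhom hP hs hE hu
  refine ⟨cplx hR, fun f ξ => ?_, fun f ξ => ?_⟩
  · rw [cplx_ofR]
    exact hE f ξ
  · rw [cplx_ap]
    exact (hE (reC f) ξ).add ((hE (imC f) ξ).const_smul Complex.I)

/-- Two separated nets with asymptotic unit `1` have the same limit. -/
theorem hom_indep [l.NeBot] [l'.NeBot] (hP : ∀ w, Pos (P w)) (hP' : ∀ w, Pos (P' w))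
    (hs : Sep P l P' l')
    (hu : ∀ ξ, Tendsto (fun w => P w 1 ξ) l (𝓝 ξ))
    (hu' : ∀ ξ, Tendsto (fun w => P' w 1 ξ) l' (𝓝 ξ)) {β β' : C(X, ℂ) →⋆ₐ[ℂ] (K →L[ℂ] K)}
    (h : ∀ (f : C(X, ℝ)) ξ, Tendsto (fun w => P w f ξ) l (𝓝 (β (ofR f) ξ)))
    (h' : ∀ (f : C(X, ℝ)) ξ, Tendsto (fun w => P' w f ξ) l' (𝓝 (β' (ofR f) ξ))) : β = β' := by
  refine hom_ext fun f => ?_
  have e1 : Lm P l (fun f => β (ofR f)) := h
  have e2 : Lm P' l' (fun f => β' (ofR f)) := h'
  have e3 := e1.indep hP hP' hs e2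
    ⟨hu, by rw [← star_eq_adjoint, star_one], fun w f => one_mul _⟩
    ⟨hu', by rw [← star_eq_adjoint, star_one], fun w f => one_mul _⟩
  exact congrFun e3 f

end main

end Vale.Agent.P092.H315D
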